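import Vale.Agent.P224.S7.K.K0
import Vale.Agent.P224.S7.K.K1
import Vale.Agent.P224.S7.K.K2
import Vale.Agent.P224.S7.K.K3
import Vale.Agent.P224.S7.K.K4
import Vale.Agent.P224.S7.K.K5
import Vale.Agent.P224.S7.K.K6
import Vale.Agent.P224.S7.K.K7
import Vale.Agent.P224.S7.K.K8
import Vale.Agent.P224.S7.K.K9
import Vale.Agent.P224.S7.K.K10
import Vale.Agent.P224.S7.K.K11
import Vale.Agent.P224.S7.K.K12
import Vale.Agent.P224.S7.K.K13
import Vale.Agent.P224.S7.K.K14
import Vale.Agent.P224.S7.K.K15
import Vale.Agent.P224.S7.K.K16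
import Vale.Agent.P224.S7.K.K17
import Vale.Agent.P224.S7.TSum

/-!
The sum over the Bernstein coefficients.
-/

namespace Vale.Agent.P224.S7.K.TS

open Vale.Agent.P224.UE Vale.Agent.P224.POS Vale.Agent.P224.PO Vale.Agent.P224.S7
open scoped RealInnerProductSpace

noncomputable section

/-- the polynomial in `s, τ, u, v, T` -/
def Q : PE :=
  .add (.add (.mul (.v 3) (.mul (.v 3) (.add (.add (.c 4168469297) (.mul (.v 0) (.add (.c (-12188191344)) (.mul (.v 0) (.add (.c 13747017156) (.mul (.v 0) (.c (-5147197478)))))))) (.mul (.v 1) (.add (.add (.c (-28186916920)) (.mul (.v 0) (.add (.c (-106002010608)) (.mul (.v 0) (.add (.c 162448608048) (.mul (.v 0) (.c (-14011759104)))))))) (.mul (.v 1) (.add (.c 68683896960) (.mul (.v 0) (.add (.c 580009428096) (.mul (.v 0) (.add (.c 3052697015424) (.mul (.v 0) (.c 556772197632))))))))))))) (.mul (.v 2) (.mul (.v 2) (.add (.add (.add (.add (.c 38742853061424) (.mul (.v 0) (.add (.c 32862600557158) (.mul (.v 0) (.add (.c (-23693768879450)) (.mul (.v 0) (.add (.c (-29950916986548))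 (.mul (.v 0) (.c (-8976190651008)))))))))) (.mul (.v 1) (.add (.add (.c (-398649234940)) (.mul (.v 0) (.add (.c (-30636566918456)) (.mul (.v 0) (.add (.c (-12961310104448)) (.mul (.v 0) (.add (.c (-299857504992)) (.mul (.v 0) (.c 4313731285776))))))))) (.mul (.v 1) (.add (.add (.c 2839757427974) (.mul (.v 0) (.add (.c 36915900978292) (.mul (.v 0) (.add (.c (-85625352632064)) (.mul (.v 0) (.add (.c 106272846497664) (.mul (.v 0) (.c (-20711930327424)))))))))) (.mul (.v 1) (.add (.c (-83039349381216)) (.mul (.v 0) (.add (.c (-68159384539008)) (.mul (.v 0) (.add (.c 80720995614336) (.mul (.v 0) (.c (-20711930327424)))))))))))))) (.mul (.v 3) (.add (.add (.c (-3736439987492)) (.mul (.v 0) (.add (.c (-37483211318242)) (.mul (.v 0) (.add (.c (-39160567192344)) (.mul (.v 0) (.c (-8976190651008)))))))) (.mul (.v 1) (.add (.add (.c 4769500499462) (.mul (.v 0) (.add (.c 11531660313652) (.mul (.v 0) (.add (.c (-51139286911104)) (.mul (.v 0) (.c 4313731287936))))))) (.mul (.v 1) (.add (.c (-83039349031296)) (.mul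 (.v 0) (.add (.c (-68159384539008)) (.mul (.v 0) (.add (.c 80720995614336) (.mul (.v 0) (.c (-20711930327424)))))))))))))) (.mul (.v 2) (.mul (.v 2) (.add (.add (.c 2513256) (.mul (.v 0) (.c 74880))) (.mul (.v 1) (.c 538800))))))))) (.mul (.v 4) (.add (.add (.mul (.v 3) (.mul (.v 3) (.add (.add (.c (-14685625416)) (.mul (.v 0) (.add (.c (-51969836873)) (.mul (.v 0) (.add (.c 567778112072) (.mul (.v 0) (.add (.c (-185948881956)) (.mul (.v 0) (.c 76))))))))) (.mul (.v 1) (.add (.add (.c 182931724256) (.mul (.v 0) (.add (.c 402938743480) (.mul (.v 0) (.add (.c (-1140564692272)) (.mul (.v 0) (.c (-879507213792)))))))) (.mul (.v 1) (.add (.c (-530064029056)) (.mul (.v 0) (.add (.c (-2117665099648)) (.mul (.v 0) (.add (.c 2459945595776) (.mul (.v 0) (.add (.c (-11271021467904)) (.mul (.v 0) (.c 1113544395264))))))))))))))) (.mul (.v 2) (.mul (.v 2) (.add (.add (.add (.add (.c (-422313737572764)) (.mul (.v 0) (.add (.c (-844488173451936)) (.mul (.v 0) (.add (.c 338684227066074) (.mul (.v 0) (.add (.c 849904811262952)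 (.mul (.v 0) (.add (.c 73637068677864) (.mul (.v 0) (.c (-17952381302016)))))))))))) (.mul (.v 1) (.add (.add (.c (-39704490106218)) (.mul (.v 0) (.add (.c 281117187859302) (.mul (.v 0) (.add (.c 400901319198500) (.mul (.v 0) (.add (.c (-118814763550280)) (.mul (.v 0) (.add (.c (-60903830093520)) (.mul (.v 0) (.c 8627462580192))))))))))) (.mul (.v 1) (.add (.add (.c 3196283137361100) (.mul (.v 0) (.add (.c 5748001544517434) (.mul (.v 0) (.add (.c 361972477226416) (.mul (.v 0) (.add (.c (-3222334469212416)) (.mul (.v 0) (.add (.c 940340169182208) (.mul (.v 0) (.c (-82847721309696)))))))))))) (.mul (.v 1) (.add (.c (-119615689673904)) (.mul (.v 0) (.add (.c 32889307269312) (.mul (.v 0) (.add (.c (-742106834963712)) (.mul (.v 0) (.add (.c 846760228224768) (.mul (.v 0) (.c (-82847721309696)))))))))))))))) (.mul (.v 3) (.add (.add (.c 25028811590480) (.mul (.v 0) (.add (.c 456464896214858) (.mul (.v 0) (.add (.c 626637260732472) (.mul (.v 0) (.add (.c 55217768219304) (.mul (.v 0) (.c (-17952381302016))))))))))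 (.mul (.v 1) (.add (.add (.c (-85229993844660)) (.mul (.v 0) (.add (.c (-212717143124806)) (.mul (.v 0) (.add (.c 273884878331248) (.mul (.v 0) (.add (.c (-162582689791104)) (.mul (.v 0) (.c 8627462575872))))))))) (.mul (.v 1) (.add (.c (-119615812259712)) (.mul (.v 0) (.add (.c 32889306704256) (.mul (.v 0) (.add (.c (-742106834963712)) (.mul (.v 0) (.add (.c 846760228224768) (.mul (.v 0) (.c (-82847721309696)))))))))))))))) (.mul (.v 2) (.mul (.v 2) (.add (.add (.c (-165337362127464)) (.mul (.v 0) (.add (.c (-34294752)) (.mul (.v 0) (.c (-149760)))))) (.mul (.v 1) (.add (.c (-187103784)) (.mul (.v 0) (.c (-791904)))))))))))) (.mul (.v 4) (.add (.add (.mul (.v 3) (.mul (.v 3) (.add (.add (.c 94436495510) (.mul (.v 0) (.add (.c 975466822040) (.mul (.v 0) (.add (.c (-6373067171378)) (.mul (.v 0) (.add (.c (-956480901512)) (.mul (.v 0) (.add (.c 1997229021564) (.mul (.v 0) (.c 30883184602))))))))))) (.mul (.v 1) (.add (.add (.c (-1173628283748)) (.mul (.v 0) (.add (.c (-5633746912088)) (.mul (.v 0) (.add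 (.c 9399146085612) (.mul (.v 0) (.add (.c 15798197549744) (.mul (.v 0) (.add (.c 800336218416) (.mul (.v 0) (.c 84070554624))))))))))) (.mul (.v 1) (.add (.c 3484969734400) (.mul (.v 0) (.add (.c 27947902756032) (.mul (.v 0) (.add (.c (-169939846734144)) (.mul (.v 0) (.add (.c 253626954903872) (.mul (.v 0) (.add (.c (-13476060212352)) (.mul (.v 0) (.c (-3897405383424)))))))))))))))))) (.mul (.v 2) (.mul (.v 2) (.add (.add (.add (.add (.c 5263775675488082) (.mul (.v 0) (.add (.c 5901366622970530) (.mul (.v 0) (.add (.c (-9078224525927148)) (.mul (.v 0) (.add (.c (-6228928006423014)) (.mul (.v 0) (.add (.c 4156936751506066) (.mul (.v 0) (.add (.c 155710097064588) (.mul (.v 0) (.c 62833334557056))))))))))))) (.mul (.v 1) (.add (.add (.c 2528621203997222) (.mul (.v 0) (.add (.c (-1669166551939296)) (.mul (.v 0) (.add (.c (-7928196315748776)) (.mul (.v 0) (.add (.c 2723069163809828) (.mul (.v 0) (.add (.c 1135020825372928) (.mul (.v 0) (.add (.c 26088585480192) (.mul (.v 0) (.c (-30196119017712))))))))))))))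 (.mul (.v 1) (.add (.add (.c (-18220054749153716)) (.mul (.v 0) (.add (.c (-48811860855449188)) (.mul (.v 0) (.add (.c (-40680905989603438)) (.mul (.v 0) (.add (.c 59774915047580380) (.mul (.v 0) (.add (.c (-13220710984736064)) (.mul (.v 0) (.add (.c 19390716978816) (.mul (.v 0) (.c 103559651637120))))))))))))) (.mul (.v 1) (.add (.c (-7947262255169952)) (.mul (.v 0) (.add (.c 5399738891157984) (.mul (.v 0) (.add (.c 9820175028820896) (.mul (.v 0) (.add (.c (-10945562558989056)) (.mul (.v 0) (.add (.c 155777433971328) (.mul (.v 0) (.c 103559651637120))))))))))))))))) (.mul (.v 3) (.add (.add (.c 1415185319816644) (.mul (.v 0) (.add (.c (-5420873136593360)) (.mul (.v 0) (.add (.c (-6840412602497412)) (.mul (.v 0) (.add (.c 4567573969072842) (.mul (.v 0) (.add (.c 220177648606512) (.mul (.v 0) (.c 62833334557056))))))))))) (.mul (.v 1) (.add (.add (.c 830066524242364) (.mul (.v 0) (.add (.c 1326275607588668) (.mul (.v 0) (.add (.c 1308970945779218) (.mul (.v 0) (.add (.c 864340999667932) (.mul (.v 0) (.add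 (.c 381964593093696) (.mul (.v 0) (.c (-30196119015552)))))))))))) (.mul (.v 1) (.add (.c (-7434582754628736)) (.mul (.v 0) (.add (.c 5399739091922304) (.mul (.v 0) (.add (.c 9820175029036032) (.mul (.v 0) (.add (.c (-10945562558989056)) (.mul (.v 0) (.add (.c 155777433971328) (.mul (.v 0) (.c 103559651637120))))))))))))))))) (.mul (.v 2) (.mul (.v 2) (.add (.add (.c (-679198916847768)) (.mul (.v 0) (.add (.c (-97831032868848)) (.mul (.v 0) (.add (.c 61606008) (.mul (.v 0) (.c 74880))))))) (.mul (.v 1) (.add (.c 512683224229488) (.mul (.v 0) (.add (.c 276517392) (.mul (.v 0) (.c 253104))))))))))))) (.mul (.v 4) (.add (.add (.mul (.v 3) (.mul (.v 3) (.add (.add (.c (-531067528622)) (.mul (.v 0) (.add (.c (-7452464053520)) (.mul (.v 0) (.add (.c 60993780379366) (.mul (.v 0) (.add (.c (-56419212812792)) (.mul (.v 0) (.add (.c 38170748900472) (.mul (.v 0) (.add (.c (-5013463930524)) (.mul (.v 0) (.c (-41177579520)))))))))))))) (.mul (.v 1) (.add (.add (.c 5392360953476) (.mul (.v 0) (.add (.c 36680827262980)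 (.mul (.v 0) (.add (.c (-64987356224584)) (.mul (.v 0) (.add (.c (-118374665725152)) (.mul (.v 0) (.add (.c 55840160984944) (.mul (.v 0) (.add (.c 1251548547072) (.mul (.v 0) (.c (-112094072832)))))))))))))) (.mul (.v 1) (.add (.c (-15228463849152)) (.mul (.v 0) (.add (.c (-194859415270848)) (.mul (.v 0) (.add (.c 1305339701205952) (.mul (.v 0) (.add (.c (-2244431848819840)) (.mul (.v 0) (.add (.c 776990010960896) (.mul (.v 0) (.add (.c 48554396766720) (.mul (.v 0) (.c 2227088790528))))))))))))))))))) (.mul (.v 2) (.mul (.v 2) (.add (.add (.add (.add (.c (-33306638463284746)) (.mul (.v 0) (.add (.c (-24501070435082736)) (.mul (.v 0) (.add (.c 81353381544967256) (.mul (.v 0) (.add (.c 18742811539516362) (.mul (.v 0) (.add (.c (-51925367754969802)) (.mul (.v 0) (.add (.c 7604577539908128) (.mul (.v 0) (.add (.c (-412527732216576)) (.mul (.v 0) (.c (-35904762604032)))))))))))))))) (.mul (.v 1) (.add (.add (.c (-24992782734991478)) (.mul (.v 0) (.add (.c 429114740941030) (.mul (.v 0) (.add (.c 69235614269871154)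 (.mul (.v 0) (.add (.c (-21952759316502810)) (.mul (.v 0) (.add (.c (-10165407962782632)) (.mul (.v 0) (.add (.c (-461539664717152)) (.mul (.v 0) (.add (.c 131733749340144) (.mul (.v 0) (.c 17254925151744))))))))))))))) (.mul (.v 1) (.add (.add (.c 32643344022377766) (.mul (.v 0) (.add (.c 210942311391271970) (.mul (.v 0) (.add (.c 373256643996675456) (.mul (.v 0) (.add (.c (-455596908907309714)) (.mul (.v 0) (.add (.c 101762957143129600) (.mul (.v 0) (.add (.c 2691246919961856) (.mul (.v 0) (.c (-1066003732658688)))))))))))))) (.mul (.v 1) (.add (.c 75850469132603216) (.mul (.v 0) (.add (.c (-79052944618195552)) (.mul (.v 0) (.add (.c (-23367520058627760)) (.mul (.v 0) (.add (.c 53748118166304128) (.mul (.v 0) (.add (.c (-2178213755348736)) (.mul (.v 0) (.c (-1083258657810432)))))))))))))))))) (.mul (.v 3) (.add (.add (.add (.c (-16169629709536162)) (.mul (.v 0) (.add (.c 37615365387677440) (.mul (.v 0) (.add (.c 37770395271116108) (.mul (.v 0) (.add (.c (-53299132814201002)) (.mul (.v 0) (.add (.c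 7508263523354656) (.mul (.v 0) (.add (.c (-449366333094144)) (.mul (.v 0) (.c (-35904762604032)))))))))))))) (.mul (.v 1) (.add (.add (.c (-6517730753607658)) (.mul (.v 0) (.add (.c 706942167045634) (.mul (.v 0) (.add (.c (-28133827522100384)) (.mul (.v 0) (.add (.c 1805326186808494) (.mul (.v 0) (.add (.c (-1196250820626304)) (.mul (.v 0) (.add (.c (-71623969169664)) (.mul (.v 0) (.c 17254925151744))))))))))))) (.mul (.v 1) (.add (.c 75557258882368064) (.mul (.v 0) (.add (.c (-79770697745469760)) (.mul (.v 0) (.add (.c (-23367520136806272)) (.mul (.v 0) (.add (.c 53748118166304128) (.mul (.v 0) (.add (.c (-2178213755348736)) (.mul (.v 0) (.c (-1083258657810432)))))))))))))))) (.mul (.v 3) (.c 74698265940480))))) (.mul (.v 2) (.mul (.v 2) (.add (.add (.c 154112971592136) (.mul (.v 0) (.add (.c 1947097504434528) (.mul (.v 0) (.add (.c 390479657363160) (.mul (.v 0) (.c (-29824512)))))))) (.mul (.v 1) (.add (.c (-293296494203496)) (.mul (.v 0) (.add (.c (-717757427179536)) (.mul (.v 0) (.c (-89413608))))))))))))))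 (.mul (.v 4) (.add (.add (.mul (.v 3) (.mul (.v 3) (.add (.add (.c 2170047721342) (.mul (.v 0) (.add (.c 32144545425892) (.mul (.v 0) (.add (.c (-310244548659682)) (.mul (.v 0) (.add (.c 480308055473652) (.mul (.v 0) (.add (.c (-395627819838283)) (.mul (.v 0) (.add (.c 67912490102456) (.mul (.v 0) (.add (.c 4710301238400) (.mul (.v 0) (.c 15441592320))))))))))))))) (.mul (.v 1) (.add (.add (.c (-16251756838068)) (.mul (.v 0) (.add (.c (-120422303135044)) (.mul (.v 0) (.add (.c 223698424796540) (.mul (.v 0) (.add (.c 230224913109592) (.mul (.v 0) (.add (.c 235034988493620) (.mul (.v 0) (.add (.c (-335504792114304)) (.mul (.v 0) (.add (.c (-2198319934464)) (.mul (.v 0) (.c 42035277312))))))))))))))) (.mul (.v 1) (.add (.c 43508877071488) (.mul (.v 0) (.add (.c 717925056430208) (.mul (.v 0) (.add (.c (-5428570435043904)) (.mul (.v 0) (.add (.c 10858663010856384) (.mul (.v 0) (.add (.c (-7235781598380352)) (.mul (.v 0) (.add (.c 1185232465300160) (.mul (.v 0) (.c (-26860012101888)))))))))))))))))))) (.mul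 (.v 2) (.mul (.v 2) (.add (.add (.add (.add (.c 119071811496327784) (.mul (.v 0) (.add (.c 67508441230101526) (.mul (.v 0) (.add (.c (-352701711503662428)) (.mul (.v 0) (.add (.c (-13958799976005606)) (.mul (.v 0) (.add (.c 257677930559962752) (.mul (.v 0) (.add (.c (-63384138131442704)) (.mul (.v 0) (.add (.c (-2420409345556864)) (.mul (.v 0) (.c 213131483460672))))))))))))))) (.mul (.v 1) (.add (.add (.c 105400904369969964) (.mul (.v 0) (.add (.c 39220887324514462) (.mul (.v 0) (.add (.c (-319934570272143966)) (.mul (.v 0) (.add (.c 82586196453834476) (.mul (.v 0) (.add (.c 61008474372424448) (.mul (.v 0) (.add (.c (-4256620433443712)) (.mul (.v 0) (.add (.c (-494347165840216)) (.mul (.v 0) (.c (-96618647221824)))))))))))))))) (.mul (.v 1) (.add (.add (.c 11879220142480372) (.mul (.v 0) (.add (.c (-532428275232081420)) (.mul (.v 0) (.add (.c (-1260906137696431780)) (.mul (.v 0) (.add (.c 1536721196278042648) (.mul (.v 0) (.add (.c (-351311224112503488)) (.mul (.v 0) (.add (.c (-22395332074600832))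 (.mul (.v 0) (.c 8638970333744064))))))))))))) (.mul (.v 1) (.add (.c (-237192600798712384)) (.mul (.v 0) (.add (.c 349875846764144032) (.mul (.v 0) (.add (.c (-47249434293626688)) (.mul (.v 0) (.add (.c (-99248430229211648)) (.mul (.v 0) (.add (.c (-6291174461757952)) (.mul (.v 0) (.c 8735588980965888))))))))))))))))) (.mul (.v 3) (.add (.add (.add (.c 72292152403002008) (.mul (.v 0) (.add (.c (-138671681867287658)) (.mul (.v 0) (.add (.c (-130189437019943956)) (.mul (.v 0) (.add (.c 248167600857932272) (.mul (.v 0) (.add (.c (-59258005495340856)) (.mul (.v 0) (.add (.c (-2497675553600896)) (.mul (.v 0) (.c 213131483460672))))))))))))) (.mul (.v 1) (.add (.add (.c 31767696367458452) (.mul (.v 0) (.add (.c (-34819243324698796)) (.mul (.v 0) (.add (.c 156917542599530060) (.mul (.v 0) (.add (.c (-57045248193928168)) (.mul (.v 0) (.add (.c 16145249146670656) (.mul (.v 0) (.add (.c 93851203474304) (.mul (.v 0) (.c (-96618647221824)))))))))))))) (.mul (.v 1) (.add (.c (-252034297190201920)) (.mul (.v 0) (.add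 (.c 350286386148043072) (.mul (.v 0) (.add (.c (-47044360666893696)) (.mul (.v 0) (.add (.c (-99248430229211648)) (.mul (.v 0) (.add (.c (-6291174461757952)) (.mul (.v 0) (.c 8735588980965888))))))))))))))) (.mul (.v 3) (.add (.c (-172736135788032)) (.mul (.v 0) (.c (-6673626501120)))))))) (.mul (.v 2) (.mul (.v 2) (.add (.add (.c 2443896997654824) (.mul (.v 0) (.add (.c (-46141185541177104)) (.mul (.v 0) (.add (.c (-1684473014515464)) (.mul (.v 0) (.c (-127311262366848)))))))) (.mul (.v 1) (.add (.c (-14840634801974208)) (.mul (.v 0) (.add (.c 410637608669808) (.mul (.v 0) (.c 205074202950048))))))))))))) (.mul (.v 4) (.add (.add (.mul (.v 3) (.mul (.v 3) (.add (.add (.c (-6467912832074)) (.mul (.v 0) (.add (.c (-88180243941430)) (.mul (.v 0) (.add (.c 916557790540244) (.mul (.v 0) (.add (.c (-1828614922689760)) (.mul (.v 0) (.add (.c 1869597816636590) (.mul (.v 0) (.add (.c (-684785594372339)) (.mul (.v 0) (.add (.c 115160720588160) (.mul (.v 0) (.c (-1521864464640)))))))))))))))) (.mul (.v 1) (.add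 (.add (.c 30723185328232) (.mul (.v 0) (.add (.c 226558288118804) (.mul (.v 0) (.add (.c (-287941386899184)) (.mul (.v 0) (.add (.c 431472415318604) (.mul (.v 0) (.add (.c (-3605300245500824)) (.mul (.v 0) (.add (.c 3288491056932480) (.mul (.v 0) (.add (.c (-489230872453248)) (.mul (.v 0) (.c 863493774720))))))))))))))) (.mul (.v 1) (.add (.c (-80293798195456)) (.mul (.v 0) (.add (.c (-1522720976497344)) (.mul (.v 0) (.add (.c 13133284822668736) (.mul (.v 0) (.add (.c (-29361033392849344)) (.mul (.v 0) (.add (.c 25514834008812864) (.mul (.v 0) (.add (.c (-6944520901715584)) (.mul (.v 0) (.c 366272604770048))))))))))))))))))) (.mul (.v 2) (.mul (.v 2) (.add (.add (.add (.add (.c (-247668638950811722)) (.mul (.v 0) (.add (.c (-126217582133155954)) (.mul (.v 0) (.add (.c 838222374167424346) (.mul (.v 0) (.add (.c (-46103721783298916)) (.mul (.v 0) (.add (.c (-667819265348139592)) (.mul (.v 0) (.add (.c 200575527578955218) (.mul (.v 0) (.add (.c 21172674111210560) (.mul (.v 0) (.c (-2472630041948032))))))))))))))))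 (.mul (.v 1) (.add (.add (.c (-235395935232395962)) (.mul (.v 0) (.add (.c (-169485592302896976)) (.mul (.v 0) (.add (.c 825231905368148790) (.mul (.v 0) (.add (.c (-179587042582478714)) (.mul (.v 0) (.add (.c (-192711647651777916)) (.mul (.v 0) (.add (.c 35395733014645360) (.mul (.v 0) (.add (.c (-2299856647366760)) (.mul (.v 0) (.c 490244650507904))))))))))))))) (.mul (.v 1) (.add (.add (.c (-132577389097042396)) (.mul (.v 0) (.add (.c 763945684238040642) (.mul (.v 0) (.add (.c 2075250231872722106) (.mul (.v 0) (.add (.c (-2628102218844589514)) (.mul (.v 0) (.add (.c 639609742461246720) (.mul (.v 0) (.add (.c 31010398183246848) (.mul (.v 0) (.c (-18156042230763776)))))))))))))) (.mul (.v 1) (.add (.add (.c 349439794607596208) (.mul (.v 0) (.add (.c (-675419321055450272)) (.mul (.v 0) (.add (.c 189949271538278928) (.mul (.v 0) (.add (.c 90896369351272128) (.mul (.v 0) (.add (.c 21439690868761984) (.mul (.v 0) (.c (-18646286881271680)))))))))))) (.mul (.v 1) (.c 292710770069667840))))))))) (.mul (.v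 3) (.add (.add (.add (.c (-166847646798817744)) (.mul (.v 0) (.add (.c 285119107124720312) (.mul (.v 0) (.add (.c 294888721054667518) (.mul (.v 0) (.add (.c (-606948701942555484)) (.mul (.v 0) (.add (.c 167188453691019012) (.mul (.v 0) (.add (.c 22658645362306752) (.mul (.v 0) (.c (-2472630041948032)))))))))))))) (.mul (.v 1) (.add (.add (.c (-85761824565540460)) (.mul (.v 0) (.add (.c 136231047132309602) (.mul (.v 0) (.add (.c (-420256505446574038)) (.mul (.v 0) (.add (.c 240463365086198774) (.mul (.v 0) (.add (.c (-82881422585996288)) (.mul (.v 0) (.add (.c 1821146446320064) (.mul (.v 0) (.c 490244650507904))))))))))))) (.mul (.v 1) (.add (.c 381295208512857728) (.mul (.v 0) (.add (.c (-658611246260245376)) (.mul (.v 0) (.add (.c 189831942404615040) (.mul (.v 0) (.add (.c 90896369351272128) (.mul (.v 0) (.add (.c 21439690868761984) (.mul (.v 0) (.c (-18646286881271680)))))))))))))))) (.mul (.v 3) (.add (.c 5643718152192) (.mul (.v 0) (.add (.c 64767290535936) (.mul (.v 0) (.c (-94856460549120))))))))))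 (.mul (.v 2) (.mul (.v 2) (.add (.add (.add (.add (.c 22499601066607704) (.mul (.v 0) (.add (.c 96620231227104816) (.mul (.v 0) (.add (.c 19483967424549576) (.mul (.v 0) (.c 416574426928704))))))) (.mul (.v 1) (.add (.add (.c 31847441515041000) (.mul (.v 0) (.add (.c 8676025658221008) (.mul (.v 0) (.c (-117341114466312)))))) (.mul (.v 1) (.c (-195140513379778560)))))) (.mul (.v 3) (.mul (.v 0) (.c (-8130854724157440))))) (.mul (.v 2) (.mul (.v 2) (.c (-97570256689889280))))))))))) (.mul (.v 4) (.add (.add (.mul (.v 3) (.mul (.v 3) (.add (.add (.c 15041872510218) (.mul (.v 0) (.add (.c 160489205325228) (.mul (.v 0) (.add (.c (-1679927826340542)) (.mul (.v 0) (.add (.c 3962986368225424) (.mul (.v 0) (.add (.c (-4841356194199944)) (.mul (.v 0) (.add (.c 2563783857076776) (.mul (.v 0) (.add (.c (-665414585109760)) (.mul (.v 0) (.c 18843064011520))))))))))))))) (.mul (.v 1) (.add (.add (.c (-35010374495332)) (.mul (.v 0) (.add (.c (-253578658677544)) (.mul (.v 0) (.add (.c (-157138916052872)) (.mul (.v 0)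 (.add (.c (-2429058500217444)) (.mul (.v 0) (.add (.c 12374883823715608) (.mul (.v 0) (.add (.c (-11469614537272320)) (.mul (.v 0) (.add (.c 2612470944481280) (.mul (.v 0) (.c (-58588317098496)))))))))))))))) (.mul (.v 1) (.add (.c 93981300087552) (.mul (.v 0) (.add (.c 1873523159058048) (.mul (.v 0) (.add (.c (-18261525018978176)) (.mul (.v 0) (.add (.c 43605489693254912) (.mul (.v 0) (.add (.c (-42280271592914112)) (.mul (.v 0) (.add (.c 13499378773471040) (.mul (.v 0) (.c (-881487267730560)))))))))))))))))))) (.mul (.v 2) (.mul (.v 2) (.add (.add (.add (.add (.c 298051560080337710) (.mul (.v 0) (.add (.c 158220242875941086) (.mul (.v 0) (.add (.c (-1117990439287165828)) (.mul (.v 0) (.add (.c 100046995444985672) (.mul (.v 0) (.add (.c 949933294289897518) (.mul (.v 0) (.add (.c (-300268009214838256)) (.mul (.v 0) (.add (.c (-50959542625468480)) (.mul (.v 0) (.c 6480893894641920))))))))))))))) (.mul (.v 1) (.add (.add (.c 294834655377423846) (.mul (.v 0) (.add (.c 312457592846701538) (.mul (.v 0) (.add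 (.c (-1184849134603026004)) (.mul (.v 0) (.add (.c 222148906081372326) (.mul (.v 0) (.add (.c 309292206086052012) (.mul (.v 0) (.add (.c (-78121238363026416)) (.mul (.v 0) (.add (.c 10630616556945896) (.mul (.v 0) (.c (-1005307731452160)))))))))))))))) (.mul (.v 1) (.add (.add (.c 204368827069521758) (.mul (.v 0) (.add (.c (-597736270955842754)) (.mul (.v 0) (.add (.c (-1680563923186958124)) (.mul (.v 0) (.add (.c 2208556241575837676) (.mul (.v 0) (.add (.c (-552416606834858240)) (.mul (.v 0) (.add (.c 248572229770624) (.mul (.v 0) (.c 12729928274713216))))))))))))) (.mul (.v 1) (.add (.add (.c (-240551201351892176)) (.mul (.v 0) (.add (.c 604616169926801920) (.mul (.v 0) (.add (.c (-169344719143559264)) (.mul (.v 0) (.add (.c (-64298562848623232)) (.mul (.v 0) (.add (.c (-11924966665092096)) (.mul (.v 0) (.c 13735236006165376))))))))))) (.mul (.v 1) (.add (.c (-637806330265927680)) (.mul (.v 0) (.c (-41481282296217600)))))))))))) (.mul (.v 3) (.add (.add (.add (.c 213109390315543474) (.mul (.v 0) (.add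 (.c (-330510809479348312)) (.mul (.v 0) (.add (.c (-415293185434847372)) (.mul (.v 0) (.add (.c 822452250420743954) (.mul (.v 0) (.add (.c (-221660707146759380)) (.mul (.v 0) (.add (.c (-55489336137540160)) (.mul (.v 0) (.c 6480893894641920))))))))))))) (.mul (.v 1) (.add (.add (.c 126666717020374574) (.mul (.v 0) (.add (.c (-233135627109508674)) (.mul (.v 0) (.add (.c 596577902639858324) (.mul (.v 0) (.add (.c (-421268218236533268)) (.mul (.v 0) (.add (.c 164063005453795968) (.mul (.v 0) (.add (.c (-3214804752384640)) (.mul (.v 0) (.c (-1005307731452160)))))))))))))) (.mul (.v 1) (.add (.c (-258855095204497472)) (.mul (.v 0) (.add (.c 563993191541391040) (.mul (.v 0) (.add (.c (-169506680943688064)) (.mul (.v 0) (.add (.c (-64298562848623232)) (.mul (.v 0) (.add (.c (-11924966665092096)) (.mul (.v 0) (.c 13735236006165376))))))))))))))) (.mul (.v 3) (.add (.c 201327755765760) (.mul (.v 0) (.add (.c 15502414086144) (.mul (.v 0) (.add (.c 163849280523264) (.mul (.v 0) (.c 22132819537920))))))))))) (.mul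 (.v 2) (.mul (.v 2) (.add (.add (.add (.add (.c (-54842704497494184)) (.mul (.v 0) (.add (.c (-51437142357957552)) (.mul (.v 0) (.add (.c (-55791776093484504)) (.mul (.v 0) (.c 4204024493000832))))))) (.mul (.v 1) (.add (.add (.c (-12939816494313048)) (.mul (.v 0) (.add (.c (-22897266253222560)) (.mul (.v 0) (.c 990428864743920))))) (.mul (.v 1) (.add (.c 425204220177285120) (.mul (.v 0) (.c 27654188197478400))))))) (.mul (.v 3) (.add (.c 5324548329308160) (.mul (.v 0) (.add (.c 17716842507386880) (.mul (.v 0) (.c 1152257841561600))))))) (.mul (.v 2) (.mul (.v 2) (.add (.c 212602110088642560) (.mul (.v 0) (.c 13827094098739200)))))))))))) (.mul (.v 4) (.add (.add (.mul (.v 3) (.mul (.v 3) (.add (.add (.c (-28221949099674)) (.mul (.v 0) (.add (.c (-196597714819378)) (.mul (.v 0) (.add (.c 1906924899647964) (.mul (.v 0) (.add (.c (-5008236988679018)) (.mul (.v 0) (.add (.c 6873629532860538) (.mul (.v 0) (.add (.c (-4269983800178620)) (.mul (.v 0) (.add (.c 1218125875491136) (.mul (.v 0) (.c (-10136079018880))))))))))))))))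 (.mul (.v 1) (.add (.add (.c 22125514167800) (.mul (.v 0) (.add (.c 165562313318780) (.mul (.v 0) (.add (.c 825990666849948) (.mul (.v 0) (.add (.c 4017785946171876) (.mul (.v 0) (.add (.c (-19296502904163116)) (.mul (.v 0) (.add (.c 18233922781456128) (.mul (.v 0) (.add (.c (-4600721853829568)) (.mul (.v 0) (.c 33103319626560))))))))))))))) (.mul (.v 1) (.add (.c (-67240015314048)) (.mul (.v 0) (.add (.c (-1258732103210752)) (.mul (.v 0) (.add (.c 13732193406950272) (.mul (.v 0) (.add (.c (-33401251844991936)) (.mul (.v 0) (.add (.c 32912678297871936) (.mul (.v 0) (.add (.c (-10073514378753408)) (.mul (.v 0) (.c 359044641783040))))))))))))))))))) (.mul (.v 2) (.mul (.v 2) (.add (.add (.add (.add (.c (-197774328659381814)) (.mul (.v 0) (.add (.c (-129067469835958272)) (.mul (.v 0) (.add (.c 800896260775725142) (.mul (.v 0) (.add (.c (-38529602594297556)) (.mul (.v 0) (.add (.c (-718653966746757140)) (.mul (.v 0) (.add (.c 192409265185762032) (.mul (.v 0) (.add (.c 56853080395247488) (.mul (.v 0) (.c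 (-2731479828327680)))))))))))))))) (.mul (.v 1) (.add (.add (.c (-201957992007722014)) (.mul (.v 0) (.add (.c (-286223425168682094)) (.mul (.v 0) (.add (.c 892815449991874790) (.mul (.v 0) (.add (.c (-112694324448498448)) (.mul (.v 0) (.add (.c (-247520794817969716)) (.mul (.v 0) (.add (.c 58794033110129392) (.mul (.v 0) (.add (.c (-10693413051835624)) (.mul (.v 0) (.c 397435631764480))))))))))))))) (.mul (.v 1) (.add (.add (.c (-140957980374837698)) (.mul (.v 0) (.add (.c 235463043262960478) (.mul (.v 0) (.add (.c 516355970332326340) (.mul (.v 0) (.add (.c (-684822223926423242)) (.mul (.v 0) (.add (.c 124026792139556544) (.mul (.v 0) (.add (.c (-11906748570523200)) (.mul (.v 0) (.c (-2359208842902272)))))))))))))) (.mul (.v 1) (.add (.add (.c 47796573624010544) (.mul (.v 0) (.add (.c (-214884587005906528)) (.mul (.v 0) (.add (.c 18861484904533456) (.mul (.v 0) (.add (.c 37581539894801472) (.mul (.v 0) (.add (.c 653625301528768) (.mul (.v 0) (.c (-2756644474666752)))))))))))) (.mul (.v 1) (.add (.c 345100076862013440)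 (.mul (.v 0) (.add (.c 166965649641308160) (.mul (.v 0) (.c (-27066249053798400)))))))))))))) (.mul (.v 3) (.add (.add (.add (.c (-147738228885000566)) (.mul (.v 0) (.add (.c 202651079596764892) (.mul (.v 0) (.add (.c 334534542933312644) (.mul (.v 0) (.add (.c (-584417194929651572)) (.mul (.v 0) (.add (.c 123244897677881148) (.mul (.v 0) (.add (.c 58747028866466688) (.mul (.v 0) (.c (-2731479828327680)))))))))))))) (.mul (.v 1) (.add (.add (.c (-98489683521316882)) (.mul (.v 0) (.add (.c 190076194240864606) (.mul (.v 0) (.add (.c (-435714355639668716)) (.mul (.v 0) (.add (.c 331830590765722742) (.mul (.v 0) (.add (.c (-131857459096142976)) (.mul (.v 0) (.add (.c (-4647505094501248)) (.mul (.v 0) (.c 397435631764480))))))))))))) (.mul (.v 1) (.add (.c 51220939342808192) (.mul (.v 0) (.add (.c (-189282795571633408)) (.mul (.v 0) (.add (.c 25824495912437056) (.mul (.v 0) (.add (.c 35777123291214912) (.mul (.v 0) (.add (.c 653625301528768) (.mul (.v 0) (.c (-2756644474666752)))))))))))))))) (.mul (.v 3)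 (.add (.c (-108933105070080)) (.mul (.v 0) (.add (.c (-182530323763200)) (.mul (.v 0) (.add (.c (-50194960257024)) (.mul (.v 0) (.add (.c (-51181077270528)) (.mul (.v 0) (.c 4699001571840))))))))))))) (.mul (.v 2) (.mul (.v 2) (.add (.add (.add (.add (.c 36559070920769736) (.mul (.v 0) (.add (.c 7424774840179728) (.mul (.v 0) (.add (.c 37487826157894296) (.mul (.v 0) (.add (.c 3427546238473344) (.mul (.v 0) (.c (-2607945872371200)))))))))) (.mul (.v 1) (.add (.add (.c (-8136131474857656)) (.mul (.v 0) (.add (.c 16874375829008784) (.mul (.v 0) (.add (.c 2324179061064120) (.mul (.v 0) (.c (-1052576352092160)))))))) (.mul (.v 1) (.add (.c (-230066717908008960)) (.mul (.v 0) (.add (.c (-111310433094205440)) (.mul (.v 0) (.c 18044166035865600))))))))) (.mul (.v 3) (.add (.c (-11424733778903040)) (.mul (.v 0) (.add (.c (-8683904944373760)) (.mul (.v 0) (.add (.c (-4637934712258560)) (.mul (.v 0) (.c 751840251494400))))))))) (.mul (.v 2) (.mul (.v 2) (.add (.c (-115033358954004480)) (.mul (.v 0) (.add (.c (-55655216547102720))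 (.mul (.v 0) (.c 9022083017932800)))))))))))))) (.mul (.v 4) (.add (.add (.mul (.v 3) (.mul (.v 3) (.add (.add (.c 41567788567644) (.mul (.v 0) (.add (.c 171622766641064) (.mul (.v 0) (.add (.c (-1242470910335222)) (.mul (.v 0) (.add (.c 3413377184124814) (.mul (.v 0) (.add (.c (-4921514771201744)) (.mul (.v 0) (.add (.c 3043113036649964) (.mul (.v 0) (.add (.c (-696918324702336)) (.mul (.v 0) (.c (-112825601880192)))))))))))))))) (.mul (.v 1) (.add (.add (.c (-5527694406496)) (.mul (.v 0) (.add (.c (-57407913605480)) (.mul (.v 0) (.add (.c (-849082326438664)) (.mul (.v 0) (.add (.c (-3184965661908896)) (.mul (.v 0) (.add (.c 14682273150608388) (.mul (.v 0) (.add (.c (-13053143321612928)) (.mul (.v 0) (.add (.c 2447463111109632) (.mul (.v 0) (.c 419454285757056))))))))))))))) (.mul (.v 1) (.add (.c 26868527437056) (.mul (.v 0) (.add (.c 385589777513664) (.mul (.v 0) (.add (.c (-4745543521390080)) (.mul (.v 0) (.add (.c 10781013476622400) (.mul (.v 0) (.add (.c (-9165908135470592)) (.mul (.v 0) (.add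 (.c 986902325888320) (.mul (.v 0) (.c 650513907294336))))))))))))))))))) (.mul (.v 2) (.mul (.v 2) (.add (.add (.add (.add (.c 63651445784590998) (.mul (.v 0) (.add (.c 63857629896454944) (.mul (.v 0) (.add (.c (-260548846161604606)) (.mul (.v 0) (.add (.c (-53212513918537772)) (.mul (.v 0) (.add (.c 251693794888920276) (.mul (.v 0) (.add (.c (-7548019999678490)) (.mul (.v 0) (.add (.c (-35079335905192512)) (.mul (.v 0) (.c (-4829438266507136)))))))))))))))) (.mul (.v 1) (.add (.add (.c 67678417274806476) (.mul (.v 0) (.add (.c 125472676387949456) (.mul (.v 0) (.add (.c (-291658896163776262)) (.mul (.v 0) (.add (.c (-34387999940956570)) (.mul (.v 0) (.add (.c 91768541797242896) (.mul (.v 0) (.add (.c (-1096138738380976)) (.mul (.v 0) (.add (.c 370358336089648) (.mul (.v 0) (.c 764087212462336))))))))))))))) (.mul (.v 1) (.add (.add (.c 54694582910024688) (.mul (.v 0) (.add (.c (-28416287268868756)) (.mul (.v 0) (.add (.c 23562085513514534) (.mul (.v 0) (.add (.c (-38070000349287270)) (.mul (.v 0) (.add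 (.c 49628678627586816) (.mul (.v 0) (.add (.c 5558302650808320) (.mul (.v 0) (.c 657560239500800))))))))))))) (.mul (.v 1) (.add (.add (.c 15600427592901120) (.mul (.v 0) (.add (.c 11746948412976896) (.mul (.v 0) (.add (.c 24078415289362160) (.mul (.v 0) (.add (.c (-8567586737659136)) (.mul (.v 0) (.add (.c (-2339367933855744)) (.mul (.v 0) (.c (-106526972961536)))))))))))) (.mul (.v 1) (.mul (.v 0) (.add (.c (-125490937040732160)) (.mul (.v 0) (.c 27068302083686400)))))))))))) (.mul (.v 3) (.add (.add (.add (.c 49473350885063562) (.mul (.v 0) (.add (.c (-50519393191410368)) (.mul (.v 0) (.add (.c (-137603391319281414)) (.mul (.v 0) (.add (.c 170920348741527208) (.mul (.v 0) (.add (.c 7189593794914992) (.mul (.v 0) (.add (.c (-30077207982717888)) (.mul (.v 0) (.c (-4829438266507136)))))))))))))) (.mul (.v 1) (.add (.add (.c 34942848237701888) (.mul (.v 0) (.add (.c (-62346686262510004)) (.mul (.v 0) (.add (.c 133336733462460438) (.mul (.v 0) (.add (.c (-87697499572580262)) (.mul (.v 0) (.add (.c 23280472927323904)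 (.mul (.v 0) (.add (.c 13032478250969856) (.mul (.v 0) (.c 764087212462336))))))))))))) (.mul (.v 1) (.add (.c 10459314816127488) (.mul (.v 0) (.add (.c 7037179412705024) (.mul (.v 0) (.add (.c 16780517707694336) (.mul (.v 0) (.add (.c (-6763033265413376)) (.mul (.v 0) (.add (.c (-2339367933855744)) (.mul (.v 0) (.c (-106526972961536)))))))))))))))) (.mul (.v 3) (.mul (.v 0) (.add (.c 108933105070080) (.mul (.v 0) (.add (.c (-18797432002560)) (.mul (.v 0) (.add (.c 29048828018688) (.mul (.v 0) (.c (-4699358000640))))))))))))) (.mul (.v 2) (.mul (.v 2) (.add (.add (.add (.add (.c (-14061640957871496)) (.mul (.v 0) (.add (.c (-17541005643082176)) (.mul (.v 0) (.add (.c (-2369416626677160)) (.mul (.v 0) (.add (.c (-8044273877836608)) (.mul (.v 0) (.c 2608143690355200))))))))) (.mul (.v 1) (.add (.add (.c 1291570502213664) (.mul (.v 0) (.add (.c (-5464148458764000)) (.mul (.v 0) (.add (.c (-3808056587518776)) (.mul (.v 0) (.c 1052656192143360))))))) (.mul (.v 1) (.mul (.v 0) (.add (.c 83660624693821440)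 (.mul (.v 0) (.c (-18045534722457600))))))))) (.mul (.v 3) (.add (.c 6100253883924480) (.mul (.v 0) (.add (.c (-902276736122880)) (.mul (.v 0) (.add (.c 3485859362242560) (.mul (.v 0) (.c (-751897280102400)))))))))) (.mul (.v 2) (.mul (.v 2) (.mul (.v 0) (.add (.c 41830312346910720) (.mul (.v 0) (.c (-9022767361228800)))))))))))))) (.mul (.v 4) (.add (.add (.mul (.v 3) (.mul (.v 3) (.add (.add (.c (-45811378332550)) (.mul (.v 0) (.add (.c (-132876253808118)) (.mul (.v 0) (.add (.c 362130731653178) (.mul (.v 0) (.add (.c (-969368171468974)) (.mul (.v 0) (.add (.c 1302458181106962) (.mul (.v 0) (.add (.c (-421854545563152)) (.mul (.v 0) (.add (.c (-244762823789696)) (.mul (.v 0) (.c 201200994614464))))))))))))))) (.mul (.v 1) (.add (.add (.c (-1786559378600)) (.mul (.v 0) (.add (.c 6354091523156) (.mul (.v 0) (.add (.c 336165475736956) (.mul (.v 0) (.add (.c 1213029320496044) (.mul (.v 0) (.add (.c (-4724044298203964)) (.mul (.v 0) (.add (.c 2689833810834880) (.mul (.v 0) (.add (.c 1078411535053824) (.mul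 (.v 0) (.c (-758103814101824)))))))))))))))) (.mul (.v 1) (.add (.c (-4617850211136)) (.mul (.v 0) (.add (.c (-28163814434816)) (.mul (.v 0) (.add (.c 424180607840832) (.mul (.v 0) (.add (.c (-377607356088192)) (.mul (.v 0) (.add (.c (-767452795323200)) (.mul (.v 0) (.add (.c 1557593806161024) (.mul (.v 0) (.c (-544098220432896)))))))))))))))))))) (.mul (.v 2) (.mul (.v 2) (.add (.add (.add (.add (.c (-8243166914140652)) (.mul (.v 0) (.add (.c (-18293394324746472)) (.mul (.v 0) (.add (.c 18514186531179434) (.mul (.v 0) (.add (.c 45745006870577550) (.mul (.v 0) (.add (.c (-24572893545163988)) (.mul (.v 0) (.add (.c (-34910754326453938)) (.mul (.v 0) (.add (.c 12128742247648768) (.mul (.v 0) (.c 3902341276268928))))))))))))))) (.mul (.v 1) (.add (.add (.c (-10594858657904102)) (.mul (.v 0) (.add (.c (-23542353242994112)) (.mul (.v 0) (.add (.c 16297782736593570) (.mul (.v 0) (.add (.c 49590049634099966) (.mul (.v 0) (.add (.c (-13217954313538708)) (.mul (.v 0) (.add (.c (-12154281948091920)) (.mul (.v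 0) (.add (.c 2845786636410976) (.mul (.v 0) (.c (-657822376941312)))))))))))))))) (.mul (.v 1) (.add (.add (.c (-29456113665520968)) (.mul (.v 0) (.add (.c (-25636898547088614)) (.mul (.v 0) (.add (.c (-8415941345148858)) (.mul (.v 0) (.add (.c 845496909597022) (.mul (.v 0) (.add (.c 3775488138285440) (.mul (.v 0) (.add (.c (-6215149257190464)) (.mul (.v 0) (.c (-631190633700928)))))))))))))) (.mul (.v 1) (.add (.c (-5338394336497488)) (.mul (.v 0) (.add (.c (-6003485663675328)) (.mul (.v 0) (.add (.c (-2993494911336304)) (.mul (.v 0) (.add (.c 63678362310208) (.mul (.v 0) (.add (.c 531578496983168) (.mul (.v 0) (.c 26631743240384))))))))))))))))) (.mul (.v 3) (.add (.add (.c (-6846177591203462)) (.mul (.v 0) (.add (.c (-2341920114479880)) (.mul (.v 0) (.add (.c 25069969076502758) (.mul (.v 0) (.add (.c 2197398789351344) (.mul (.v 0) (.add (.c (-28531161249473220)) (.mul (.v 0) (.add (.c 7779400572829696) (.mul (.v 0) (.c 3902341276268928))))))))))))) (.mul (.v 1) (.add (.add (.c (-3293860102432680))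 (.mul (.v 0) (.add (.c 1645525421986586) (.mul (.v 0) (.add (.c (-2439884411444938)) (.mul (.v 0) (.add (.c (-11892774244830242)) (.mul (.v 0) (.add (.c 14717976362069120) (.mul (.v 0) (.add (.c (-8030429670750080)) (.mul (.v 0) (.c (-657822376941312)))))))))))))) (.mul (.v 1) (.mul (.v 0) (.add (.c 980180854455744) (.mul (.v 0) (.add (.c (-1708091629862080)) (.mul (.v 0) (.add (.c 63678362310208) (.mul (.v 0) (.add (.c 531578496983168) (.mul (.v 0) (.c 26631743240384)))))))))))))))) (.mul (.v 2) (.mul (.v 2) (.add (.add (.c 17290870292279184) (.mul (.v 0) (.add (.c 20967123961048080) (.mul (.v 0) (.add (.c 6280605615180216) (.mul (.v 0) (.c 479304223887936))))))) (.mul (.v 1) (.add (.c 4749340862322504) (.mul (.v 0) (.add (.c 6625211049719136) (.mul (.v 0) (.c 1273269418595736))))))))))))) (.mul (.v 4) (.add (.add (.mul (.v 3) (.mul (.v 3) (.add (.add (.c 36419077573778) (.mul (.v 0) (.add (.c 112682720663948) (.mul (.v 0) (.add (.c 34168420558538) (.mul (.v 0) (.add (.c (-10725824544272)) (.mul (.v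 0) (.add (.c 94863640990356) (.mul (.v 0) (.add (.c (-352943237103262)) (.mul (.v 0) (.add (.c 311253688659968) (.mul (.v 0) (.c (-108574281897472)))))))))))))))) (.mul (.v 1) (.add (.add (.c 2339068671004) (.mul (.v 0) (.add (.c 4065339942024) (.mul (.v 0) (.add (.c (-35032260569328)) (.mul (.v 0) (.add (.c (-186045748372512)) (.mul (.v 0) (.add (.c 246381371942660) (.mul (.v 0) (.add (.c 798615114984704) (.mul (.v 0) (.add (.c (-1206780999508224)) (.mul (.v 0) (.c 412800081967616))))))))))))))) (.mul (.v 1) (.mul (.v 0) (.add (.c 1026188935808) (.mul (.v 0) (.add (.c 5113203970560) (.mul (.v 0) (.add (.c (-103947379935360)) (.mul (.v 0) (.add (.c 257566055090688) (.mul (.v 0) (.add (.c (-255919592663680)) (.mul (.v 0) (.c 74433120704256)))))))))))))))))) (.mul (.v 2) (.mul (.v 2) (.add (.add (.add (.add (.c 2461686041742380) (.mul (.v 0) (.add (.c 5580249181429110) (.mul (.v 0) (.add (.c 1367130339346704) (.mul (.v 0) (.add (.c (-8769501087201850)) (.mul (.v 0) (.add (.c (-1509378558524440)) (.mul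 (.v 0) (.add (.c 5227008437577174) (.mul (.v 0) (.add (.c (-1350048670401920)) (.mul (.v 0) (.c (-525850089686272)))))))))))))))) (.mul (.v 1) (.add (.add (.c 5086441514695598) (.mul (.v 0) (.add (.c 6122183716852150) (.mul (.v 0) (.add (.c (-957998955093744)) (.mul (.v 0) (.add (.c (-10131043688620040)) (.mul (.v 0) (.add (.c 18388622568872) (.mul (.v 0) (.add (.c 1810244974609376) (.mul (.v 0) (.add (.c (-467639166193464)) (.mul (.v 0) (.c 91083038795264))))))))))))))) (.mul (.v 1) (.add (.add (.c 28720514721835584) (.mul (.v 0) (.add (.c 34991904935783892) (.mul (.v 0) (.add (.c 7131073946773292) (.mul (.v 0) (.add (.c 3912864722131536) (.mul (.v 0) (.add (.c (-2659474913577472)) (.mul (.v 0) (.add (.c 1045715229566464) (.mul (.v 0) (.c 91083038795264))))))))))))) (.mul (.v 1) (.add (.c 4413216466593600) (.mul (.v 0) (.add (.c 7081837106833632) (.mul (.v 0) (.c 1842553741357440))))))))))) (.mul (.v 3) (.add (.add (.c 2583507536464370) (.mul (.v 0) (.add (.c 3259720364701338) (.mul (.v 0) (.add (.c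 (-3497154170445522)) (.mul (.v 0) (.add (.c (-4665252165302324)) (.mul (.v 0) (.add (.c 3927582647750088) (.mul (.v 0) (.add (.c (-740015807484032)) (.mul (.v 0) (.c (-525850089686272)))))))))))))) (.mul (.v 1) (.add (.c (-97717329570912)) (.mul (.v 0) (.add (.c 336526465198740) (.mul (.v 0) (.add (.c (-2053716237020452)) (.mul (.v 0) (.add (.c 3015209364961680) (.mul (.v 0) (.add (.c (-2659474913577472)) (.mul (.v 0) (.add (.c 1045715229566464) (.mul (.v 0) (.c 91083038795264))))))))))))))))) (.mul (.v 2) (.mul (.v 2) (.add (.add (.c (-17465493100578024)) (.mul (.v 0) (.add (.c (-24073102357646736)) (.mul (.v 0) (.add (.c (-7982761916941512)) (.mul (.v 0) (.c (-897655357169856)))))))) (.mul (.v 1) (.add (.c (-3655565657825760)) (.mul (.v 0) (.add (.c (-6453119725120080)) (.mul (.v 0) (.c (-1816527668008320)))))))))))))) (.mul (.v 4) (.add (.add (.mul (.v 3) (.mul (.v 3) (.add (.add (.c (-20292370134412)) (.mul (.v 0) (.add (.c (-85571492388286)) (.mul (.v 0) (.add (.c (-81499724892932)) (.mul (.v 0)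 (.add (.c 11445178809032) (.mul (.v 0) (.add (.c (-14354346540524)) (.mul (.v 0) (.add (.c 62253867768248) (.mul (.v 0) (.add (.c (-42112936516416)) (.mul (.v 0) (.c 12998257646784))))))))))))))) (.mul (.v 1) (.add (.c (-1449619747772)) (.mul (.v 0) (.add (.c (-4326265091544)) (.mul (.v 0) (.add (.c (-821971024248)) (.mul (.v 0) (.add (.c 11856747752356) (.mul (.v 0) (.add (.c 30936864680916) (.mul (.v 0) (.add (.c (-153947171609088)) (.mul (.v 0) (.add (.c 160702205798976) (.mul (.v 0) (.c (-49571531438016)))))))))))))))))))) (.mul (.v 2) (.mul (.v 2) (.add (.add (.add (.add (.c (-1792040370496432)) (.mul (.v 0) (.add (.c (-3792906586658816)) (.mul (.v 0) (.add (.c (-700882327889608)) (.mul (.v 0) (.add (.c 2480471512450220) (.mul (.v 0) (.add (.c 1824731971886996) (.mul (.v 0) (.c 372632636380314))))))))))) (.mul (.v 1) (.add (.add (.c (-4337449836693618)) (.mul (.v 0) (.add (.c (-6280980214053092)) (.mul (.v 0) (.add (.c 2014969290304098) (.mul (.v 0) (.add (.c 3545710773028680) (.mul (.v 0) (.add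 (.c 996820329584428) (.mul (.v 0) (.add (.c 127374274848336) (.mul (.v 0) (.c 18334754193024))))))))))))) (.mul (.v 1) (.add (.add (.c (-24155385927029580)) (.mul (.v 0) (.add (.c (-35424396205705392)) (.mul (.v 0) (.add (.c (-9008528811868692)) (.mul (.v 0) (.c (-935297341865142)))))))) (.mul (.v 1) (.add (.c (-2902972888274976)) (.mul (.v 0) (.add (.c (-5657856741686784)) (.mul (.v 0) (.c (-1743442770336144)))))))))))) (.mul (.v 3) (.add (.add (.c (-2156617523574408)) (.mul (.v 0) (.add (.c (-3262360496488352)) (.mul (.v 0) (.add (.c 379955542762182) (.mul (.v 0) (.add (.c 1489972151948364) (.mul (.v 0) (.c 389599169712964))))))))) (.mul (.v 1) (.add (.c 46032807324084) (.mul (.v 0) (.add (.c 267360699916272) (.mul (.v 0) (.add (.c 390533515394124) (.mul (.v 0) (.c 141981571899786))))))))))) (.mul (.v 2) (.mul (.v 2) (.add (.add (.c 13757150263950144) (.mul (.v 0) (.add (.c 22597339151610480) (.mul (.v 0) (.add (.c 7688169485133504) (.mul (.v 0) (.c 1077278913764928))))))) (.mul (.v 1) (.add (.c 2202243330170928)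 (.mul (.v 0) (.add (.c 4857468765183936) (.mul (.v 0) (.c 1703778862797576))))))))))))) (.mul (.v 4) (.add (.add (.mul (.v 3) (.mul (.v 3) (.add (.add (.c 7567309656996) (.mul (.v 0) (.add (.c 46154064654028) (.mul (.v 0) (.add (.c 62233367248726) (.mul (.v 0) (.add (.c 14860055394872) (.mul (.v 0) (.add (.c (-10476643497762)) (.mul (.v 0) (.c (-4122455440844)))))))))))) (.mul (.v 1) (.add (.c 593905230044) (.mul (.v 0) (.add (.c 2750571443820) (.mul (.v 0) (.add (.c 1459259414204) (.mul (.v 0) (.add (.c (-1284790049928)) (.mul (.v 0) (.c (-461845350888)))))))))))))) (.mul (.v 2) (.mul (.v 2) (.add (.add (.add (.add (.c 941077625869492) (.mul (.v 0) (.add (.c 2456219808107490) (.mul (.v 0) (.add (.c 520173000998358) (.mul (.v 0) (.add (.c (-1708544312934880)) (.mul (.v 0) (.add (.c (-1416093996944814)) (.mul (.v 0) (.c (-406972755619758)))))))))))) (.mul (.v 1) (.add (.add (.c 2633821806681318) (.mul (.v 0) (.add (.c 5642318831509286) (.mul (.v 0) (.add (.c (-762946860451282)) (.mul (.v 0) (.add (.c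 (-3150896513661658)) (.mul (.v 0) (.add (.c (-1005915619304796)) (.mul (.v 0) (.add (.c (-157899331976160)) (.mul (.v 0) (.c (-25658936576232)))))))))))))) (.mul (.v 1) (.add (.add (.c 14702379423159996) (.mul (.v 0) (.add (.c 28208973522239016) (.mul (.v 0) (.add (.c 7192211101501296) (.mul (.v 0) (.c 805778827486152))))))) (.mul (.v 1) (.add (.c 1453915541934336) (.mul (.v 0) (.add (.c 3567248856451872) (.mul (.v 0) (.c 1244640275093184))))))))))) (.mul (.v 3) (.add (.add (.c 1241956169435754) (.mul (.v 0) (.add (.c 2724040886511998) (.mul (.v 0) (.add (.c 575813109273266) (.mul (.v 0) (.add (.c (-684706718311450)) (.mul (.v 0) (.c (-305805930966780)))))))))) (.mul (.v 1) (.add (.c (-12816649048836)) (.mul (.v 0) (.add (.c (-119882928907704)) (.mul (.v 0) (.add (.c (-222346765220496)) (.mul (.v 0) (.c (-100158592279800)))))))))))) (.mul (.v 2) (.mul (.v 2) (.add (.add (.c (-7982496632217480)) (.mul (.v 0) (.add (.c (-16647867241868736)) (.mul (.v 0) (.add (.c (-5672879063539080)) (.mul (.v 0) (.c (-905937419765952))))))))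 (.mul (.v 1) (.add (.c (-999695385572928)) (.mul (.v 0) (.add (.c (-2834684068672752)) (.mul (.v 0) (.c (-1201903107358176)))))))))))))) (.mul (.v 4) (.add (.add (.mul (.v 3) (.mul (.v 3) (.add (.add (.c (-1698586556220)) (.mul (.v 0) (.add (.c (-16535720962934)) (.mul (.v 0) (.add (.c (-31634632620772)) (.mul (.v 0) (.add (.c (-13111494659944)) (.mul (.v 0) (.add (.c 2890670847434) (.mul (.v 0) (.c 2296640117034))))))))))) (.mul (.v 1) (.add (.c (-146016329400)) (.mul (.v 0) (.add (.c (-1154427993952)) (.mul (.v 0) (.add (.c (-1128860279088)) (.mul (.v 0) (.add (.c 602430421920) (.mul (.v 0) (.c 252759176224))))))))))))) (.mul (.v 2) (.mul (.v 2) (.add (.add (.add (.add (.c (-339208897119758)) (.mul (.v 0) (.add (.c (-1161420770366482)) (.mul (.v 0) (.add (.c (-157064369578536)) (.mul (.v 0) (.add (.c 1051144309481384) (.mul (.v 0) (.add (.c 783868221723584) (.mul (.v 0) (.c 322482501994244))))))))))) (.mul (.v 1) (.add (.add (.c (-1085385510903038)) (.mul (.v 0) (.add (.c (-3579884613787904)) (.mul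 (.v 0) (.add (.c (-81105637688742)) (.mul (.v 0) (.add (.c 2359701855102816) (.mul (.v 0) (.add (.c 772122509312616) (.mul (.v 0) (.add (.c 142787486883120) (.mul (.v 0) (.c 25730343635496))))))))))))) (.mul (.v 1) (.add (.add (.c (-6063610311598596)) (.mul (.v 0) (.add (.c (-16396676939324274)) (.mul (.v 0) (.add (.c (-4253985904852812)) (.mul (.v 0) (.c (-488329617631488)))))))) (.mul (.v 1) (.add (.c (-515179162196976)) (.mul (.v 0) (.add (.c (-1703308174281600)) (.mul (.v 0) (.c (-664275968176896)))))))))))) (.mul (.v 3) (.add (.add (.c (-476960746603172)) (.mul (.v 0) (.add (.c (-1500128519754548)) (.mul (.v 0) (.add (.c (-591131160162420)) (.mul (.v 0) (.add (.c 164694166818396) (.mul (.v 0) (.c 166551420461568))))))))) (.mul (.v 1) (.add (.c 1129745411148) (.mul (.v 0) (.add (.c 35138478656910) (.mul (.v 0) (.add (.c 93332735085012) (.mul (.v 0) (.c 52703394875136))))))))))) (.mul (.v 2) (.mul (.v 2) (.add (.add (.c 3177752164424424) (.mul (.v 0) (.add (.c 9117324468147264) (.mul (.v 0) (.add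 (.c 3110597901063360) (.mul (.v 0) (.c 541033012506624))))))) (.mul (.v 1) (.add (.c 319280984812728) (.mul (.v 0) (.add (.c 1233486747588864) (.mul (.v 0) (.c 632440738501824))))))))))))) (.mul (.v 4) (.add (.add (.mul (.v 3) (.mul (.v 3) (.add (.add (.c 173681631976) (.mul (.v 0) (.add (.c 3554087845214) (.mul (.v 0) (.add (.c 10405280324382) (.mul (.v 0) (.add (.c 5954486310114) (.mul (.v 0) (.add (.c (-147560208788)) (.mul (.v 0) (.c (-872398048964)))))))))))) (.mul (.v 1) (.add (.c 16285735092) (.mul (.v 0) (.add (.c 288581821160) (.mul (.v 0) (.add (.c 524514066328) (.mul (.v 0) (.add (.c (-195514782196)) (.mul (.v 0) (.c (-97428879520)))))))))))))) (.mul (.v 2) (.mul (.v 2) (.add (.add (.add (.add (.c 75256248582946) (.mul (.v 0) (.add (.c 388387598454292) (.mul (.v 0) (.add (.c (-4286635095378)) (.mul (.v 0) (.add (.c (-579567936308748)) (.mul (.v 0) (.add (.c (-301908453954498)) (.mul (.v 0) (.c (-177022518216482)))))))))))) (.mul (.v 1) (.add (.add (.c 272329658743238) (.mul (.v 0) (.add (.c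 1546814478749330) (.mul (.v 0) (.add (.c 406028534034278) (.mul (.v 0) (.add (.c (-1387666543334694)) (.mul (.v 0) (.add (.c (-439293067260200)) (.mul (.v 0) (.add (.c (-91533789368544)) (.mul (.v 0) (.c (-18026315368440)))))))))))))) (.mul (.v 1) (.add (.add (.c 1511044201940496) (.mul (.v 0) (.add (.c 6497890464517518) (.mul (.v 0) (.add (.c 1744382448869196) (.mul (.v 0) (.c 200398309643376))))))) (.mul (.v 1) (.add (.c 114006703218288) (.mul (.v 0) (.add (.c 573585369620352) (.mul (.v 0) (.c 249392632347264))))))))))) (.mul (.v 3) (.add (.add (.c 110305571026790) (.mul (.v 0) (.add (.c 542405203556114) (.mul (.v 0) (.add (.c 278578953677114) (.mul (.v 0) (.add (.c 9649041798222) (.mul (.v 0) (.c (-61654316067680)))))))))) (.mul (.v 1) (.add (.c 405169768224) (.mul (.v 0) (.add (.c (-5263094213586)) (.mul (.v 0) (.add (.c (-26811801707892)) (.mul (.v 0) (.c (-19482613501392)))))))))))) (.mul (.v 2) (.mul (.v 2) (.add (.add (.c (-770951569091808)) (.mul (.v 0) (.add (.c (-3453216045765888)) (.mul (.v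 0) (.add (.c (-1189402740734520)) (.mul (.v 0) (.c (-219880923144768)))))))) (.mul (.v 1) (.add (.c (-63511654565784)) (.mul (.v 0) (.add (.c (-373160650010112)) (.mul (.v 0) (.c (-233791362015936)))))))))))))) (.mul (.v 4) (.add (.add (.mul (.v 3) (.mul (.v 3) (.add (.mul (.v 0) (.add (.c (-347363263952)) (.mul (.v 0) (.add (.c (-2012416021768)) (.mul (.v 0) (.add (.c (-1472636387946)) (.mul (.v 0) (.add (.c (-159482701964)) (.mul (.v 0) (.c 203702269586)))))))))) (.mul (.v 1) (.mul (.v 0) (.add (.c (-32571470184)) (.mul (.v 0) (.add (.c (-139114654120)) (.mul (.v 0) (.add (.c 38634929024) (.mul (.v 0) (.c 23423365236)))))))))))) (.mul (.v 2) (.mul (.v 2) (.add (.add (.add (.add (.c (-7725807977988)) (.mul (.v 0) (.add (.c (-82735285159244)) (.mul (.v 0) (.add (.c 8471056707226) (.mul (.v 0) (.add (.c 242852612876166) (.mul (.v 0) (.add (.c 84169202131364) (.mul (.v 0) (.c 61811688391192))))))))))) (.mul (.v 1) (.add (.add (.c (-31396611392916)) (.mul (.v 0) (.add (.c (-408609454944988)) (.mul (.v 0)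 (.add (.c (-315153474095326)) (.mul (.v 0) (.add (.c 581314713306740) (.mul (.v 0) (.add (.c 173822570964088) (.mul (.v 0) (.add (.c 39398068110240) (.mul (.v 0) (.c 8378428269792))))))))))))) (.mul (.v 1) (.add (.add (.c (-171476305883676)) (.mul (.v 0) (.add (.c (-1562256078839688)) (.mul (.v 0) (.add (.c (-440034298690524)) (.mul (.v 0) (.c (-50084932704918)))))))) (.mul (.v 1) (.add (.c (-11772856197504)) (.mul (.v 0) (.add (.c (-120391797680544)) (.mul (.v 0) (.c (-58406207423376)))))))))))) (.mul (.v 3) (.add (.add (.c (-11636630113068)) (.mul (.v 0) (.add (.c (-117580118090020)) (.mul (.v 0) (.add (.c (-70021164385984)) (.mul (.v 0) (.add (.c (-18883800003664)) (.mul (.v 0) (.c 14058755426608))))))))) (.mul (.v 1) (.add (.c (-98163741564)) (.mul (.v 0) (.add (.c (-56376801576)) (.mul (.v 0) (.add (.c 4616337836916) (.mul (.v 0) (.c 4489972099818))))))))))) (.mul (.v 2) (.mul (.v 2) (.add (.add (.c 85689071071056) (.mul (.v 0) (.add (.c 801942588359952) (.mul (.v 0) (.add (.c 281701016147544) (.mul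 (.v 0) (.c 54574904804736))))))) (.mul (.v 1) (.add (.c 5886428098752) (.mul (.v 0) (.add (.c 69307522979568) (.mul (.v 0) (.c 53879665197384))))))))))))) (.mul (.v 4) (.add (.add (.mul (.v 3) (.mul (.v 3) (.add (.mul (.v 0) (.mul (.v 0) (.add (.c 173681631976) (.mul (.v 0) (.add (.c 156914732774) (.mul (.v 0) (.add (.c 35767369502) (.mul (.v 0) (.c (-22065506994)))))))))) (.mul (.v 1) (.mul (.v 0) (.mul (.v 0) (.add (.c 16285735092) (.mul (.v 0) (.add (.c (-3450837640)) (.mul (.v 0) (.c (-2626231444)))))))))))) (.mul (.v 2) (.mul (.v 2) (.add (.add (.add (.mul (.v 0) (.add (.c 8310860033388) (.mul (.v 0) (.add (.c 1365203721622) (.mul (.v 0) (.add (.c (-60505682533128)) (.mul (.v 0) (.add (.c (-19026772408666)) (.mul (.v 0) (.c (-11716333855138))))))))))) (.mul (.v 1) (.add (.mul (.v 0) (.add (.c 49684985648076) (.mul (.v 0) (.add (.c 118168614566018) (.mul (.v 0) (.add (.c (-151086110244662)) (.mul (.v 0) (.add (.c (-42484093076480)) (.mul (.v 0) (.add (.c (-10209546774384)) (.mul (.v 0) (.c (-2321296144080)))))))))))))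 (.mul (.v 1) (.add (.mul (.v 0) (.add (.c 171476305883676) (.mul (.v 0) (.add (.c 51211876899192) (.mul (.v 0) (.c 5754145771602)))))) (.mul (.v 1) (.mul (.v 0) (.add (.c 11772856197504) (.mul (.v 0) (.c 6385094462256)))))))))) (.mul (.v 3) (.add (.mul (.v 0) (.add (.c 11636630113068) (.mul (.v 0) (.add (.c 7556929984298) (.mul (.v 0) (.add (.c 4564687065730) (.mul (.v 0) (.c (-1522803354656))))))))) (.mul (.v 1) (.mul (.v 0) (.add (.c 98163741564) (.mul (.v 0) (.add (.c (-348792966648)) (.mul (.v 0) (.c (-482989034478))))))))))) (.mul (.v 2) (.mul (.v 2) (.add (.mul (.v 0) (.add (.c (-85689071071056)) (.mul (.v 0) (.add (.c (-30991019268144)) (.mul (.v 0) (.c (-6237134806080))))))) (.mul (.v 1) (.mul (.v 0) (.add (.c (-5886428098752)) (.mul (.v 0) (.c (-5795868413784))))))))))))) (.mul (.v 4) (.mul (.v 2) (.mul (.v 2) (.add (.add (.mul (.v 0) (.mul (.v 0) (.add (.c (-585052055400)) (.mul (.v 0) (.add (.c 6113832854676) (.mul (.v 0) (.add (.c 2855924491368) (.mul (.v 0) (.c 803939124868))))))))) (.mul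 (.v 1) (.mul (.v 0) (.mul (.v 0) (.add (.c (-18288374255160)) (.mul (.v 0) (.add (.c 18111181635732) (.mul (.v 0) (.add (.c 4810616493696) (.mul (.v 0) (.add (.c 1203652842048) (.mul (.v 0) (.c 290162018064))))))))))))) (.mul (.v 3) (.mul (.v 0) (.mul (.v 0) (.mul (.v 0) (.add (.c (-282382921068)) (.mul (.v 0) (.c 12020367312)))))))))))))))))))))))))))))))))))))))))))

/-- the coefficients and the Bernstein coefficients -/
def L : List (Nat × PE) := [
  (1, Vale.Agent.P224.S7.K.K0.P),
  (2, Vale.Agent.P224.S7.K.K1.P),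
  (2, Vale.Agent.P224.S7.K.K2.P),
  (2, Vale.Agent.P224.S7.K.K3.P),
  (1, Vale.Agent.P224.S7.K.K4.P),
  (2, Vale.Agent.P224.S7.K.K5.P),
  (2, Vale.Agent.P224.S7.K.K6.P),
  (2, Vale.Agent.P224.S7.K.K7.P),
  (1, Vale.Agent.P224.S7.K.K8.P),
  (2, Vale.Agent.P224.S7.K.K9.P),
  (2, Vale.Agent.P224.S7.K.K10.P),
  (2, Vale.Agent.P224.S7.K.K11.P),
  (1, Vale.Agent.P224.S7.K.K12.P),
  (2, Vale.Agent.P224.S7.K.K13.P),
  (2, Vale.Agent.P224.S7.K.K14.P),
  (8, Vale.Agent.P224.S7.K.K15.P),
  (1, Vale.Agent.P224.S7.K.K16.P),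
  (8, Vale.Agent.P224.S7.K.K17.P)]

/-- the integers replacing the first four variables -/
def Ms : List Nat := [
  Nat.add (Nat.pow 2 89) 1075527200898229613,
  Nat.add (Nat.pow 2 702) 1070408644019699239,
  Nat.add (Nat.pow 2 3066) 1026802302190162061,
  Nat.add (Nat.pow 2 18653) 836924351570040769]

set_option maxRecDepth 100000 in
/-- **The identity**, checked by the kernel. -/
theorem idT : chk Ms (.sub (.mul (.c (Int.ofNat 16)) Q) (tsum 1 0 1 17 L 0)) = true := by
  decide +kernel

/-- **Positivity** on the interval. -/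
theorem posT {E : Type*} [NormedAddCommGroup E] [InnerProductSpace ℝ E] {x N y w : E}
    (hx : ‖x‖ = 1) (hN : ‖N‖ = 1) (hy : ‖y‖ = 1) (hw : ‖w‖ = 1)
    (hxN : ⟪x, N⟫ = 0) (hyw : ⟪y, w⟫ = 0) {T : ℝ}
    (h0 : ((0 : ℤ) : ℝ) ≤ ((1 : ℤ) : ℝ) * T) (h1 : ((1 : ℤ) : ℝ) * T ≤ ((1 : ℤ) : ℝ)) :
    0 ≤ PE.ev (vT T ⟪x, y⟫ ⟪x, w⟫ ⟪N, y⟫ ⟪N, w⟫) Q :=
  pos_of_tsum 1 0 1 16 17 (by norm_num) idT
    (fun i hi => vT_ge _ _ _ _ _ (le_trans (by decide) hi)) h0 h1
    (pl_cons (Vale.Agent.P224.S7.K.K0.pos hx hN hy hw hxN hyw T) (pl_cons (Vale.Agent.P224.S7.K.K1.pos hx hN hy hw hxN hyw T) (pl_cons (Vale.Agent.P224.S7.K.K2.pos hx hN hy hw hxN hyw T) (pl_cons (Vale.Agent.P224.S7.K.K3.pos hx hN hy hw hxN hyw T) (pl_cons (Vale.Agent.P224.S7.K.K4.pos hx hN hy hw hxN hyw T) (pl_cons (Vale.Agent.P224.S7.K.K5.pos hx hN hy hw hxN hyw T) (pl_cons (Vale.Agent.P224.S7.K.K6.pos hx hN hy hw hxN hyw T) (pl_cons (Vale.Agent.P224.S7.K.K7.pos hx hN hy hw hxN hyw T) (pl_cons (Vale.Agent.P224.S7.K.K8.pos hx hN hy hw hxN hyw T) (pl_cons (Vale.Agent.P224.S7.K.K9.pos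 hx hN hy hw hxN hyw T) (pl_cons (Vale.Agent.P224.S7.K.K10.pos hx hN hy hw hxN hyw T) (pl_cons (Vale.Agent.P224.S7.K.K11.pos hx hN hy hw hxN hyw T) (pl_cons (Vale.Agent.P224.S7.K.K12.pos hx hN hy hw hxN hyw T) (pl_cons (Vale.Agent.P224.S7.K.K13.pos hx hN hy hw hxN hyw T) (pl_cons (Vale.Agent.P224.S7.K.K14.pos hx hN hy hw hxN hyw T) (pl_cons (Vale.Agent.P224.S7.K.K15.pos hx hN hy hw hxN hyw T) (pl_cons (Vale.Agent.P224.S7.K.K16.pos hx hN hy hw hxN hyw T) (pl_cons (Vale.Agent.P224.S7.K.K17.pos hx hN hy hw hxN hyw T) pl_nil))))))))))))))))))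

end

end Vale.Agent.P224.S7.K.TS
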